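import Vale.Agent.Lib.P084.RNP.Union

/-!
Tingley's problem: all spaces whose unit sphere has only dentable faces (for Banach spaces this
contains all spaces with the Radon-Nikodym property), spaces with functionals of slope one, spaces with
nontrivial L- or M-projections, spaces `Z ⊕_p W` with `1 < p < ∞` and `Z`, `W` arbitrary nonzero,
spaces `C₀(L, E)`, spaces with dense flat points, spaces with ball faces, and the reduction of the general case to dyadic trees inside faces.
-/

namespace Vale.Agent.Results.P084.AAAA_rnp

open Metric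
open Vale.Agent.Lib.P084.RNP Vale.Agent.Lib.P084.FaceDist

/-- Let `X`, `Y` be real normed spaces, `X` of dimension at least three, possibly infinite, and let
`f` be a surjective isometry of the unit sphere of `X` onto the unit sphere of `Y`.

(1) `f` is the restriction of a surjective linear isometry of `X` onto `Y` if one of `X`, `Y`
is finite dimensional; or is strictly convex; or is reflexive (the canonical map into the bidual is
onto); or has a subspace `N` such that functionals of slope one separate points modulo `N` and all
nonempty subsets of faces of the unit sphere lying in one coset of `N` are dentable (`N = ⊤`: all subsets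
of all faces dentable; `N = ⊥`: functionals of slope one separate points, which contains all `C(K)`,
`K` compact); or has a nontrivial L-projection or M-projection (it is an `l_1` or `l_infty` sum of two
nonzero subspaces); or is `Z ⊕_p W` for some `1 < p < ∞` and arbitrary nonzero normed spaces `Z`, `W`
(`IsLpSummand p P`: `P` is idempotent and `‖x‖ ^ p = ‖x - P x‖ ^ p + ‖P x‖ ^ p` for all `x`; `W` is the
range of `P`, `Z` its kernel); or is linearly isometric to a space `C₀(L, E)` of continuous functions
vanishing at infinity on an infinite locally compact Hausdorff space with values in a nonzero normed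
space (for compact `L` this is `C(L, E)`); or has dense flat points: the norm is linear near a dense set
of points of the unit sphere (`FlatDense`; this contains all locally finitely polyhedral spaces,
`Flat.flatDense_of_locFinPoly`, so all subspaces of `c_0(Γ)`, `Flat.flatDense_of_subC0`); or has ball
faces (`HasBallFaces`: for `x₁`, `x₂`, `ε > 0` there are a unit `w` and a subspace `J` with
`‖w + x‖ = max 1 ‖x‖` on `J`, every unit `z` with `‖z + w‖ = 2` in `w + J`, and `J` within `ε` of `x₁`, `x₂`;
this contains the compact operators on infinite dimensional Hilbert spaces,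
`BallFace.hasBallFaces_compact_real`, `BallFace.hasBallFaces_compact_complex`).

(2) In general: either `f` is the restriction of a surjective linear isometry, or there is `δ > 0` such
that each of the two unit spheres has a face containing a dyadic tree with increments of norm `δ`. -/
theorem result {X Y : Type*} [NormedAddCommGroup X] [NormedSpace ℝ X]
    [NormedAddCommGroup Y] [NormedSpace ℝ Y]
    (hrank : (3 : Cardinal) ≤ Module.rank ℝ X)
    (f : sphere (0 : X) 1 → sphere (0 : Y) 1) (hf : Isometry f) (hs : Function.Surjective f) :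
    ((FiniteDimensional ℝ X ∨ FiniteDimensional ℝ Y ∨ StrictConvexSpace ℝ X ∨
        StrictConvexSpace ℝ Y ∨
        Function.Surjective (NormedSpace.inclusionInDoubleDual ℝ X) ∨
        Function.Surjective (NormedSpace.inclusionInDoubleDual ℝ Y) ∨
        (∃ N : Submodule ℝ X, SlopeSeparatesMod N ∧ FacesDentableMod N) ∨
        (∃ N : Submodule ℝ Y, SlopeSeparatesMod N ∧ FacesDentableMod N) ∨
        (∃ P : X →L[ℝ] X, (IsLprojection X P ∨ IsMprojection X P) ∧ P ≠ 0 ∧ P ≠ 1) ∨
        (∃ P : Y →L[ℝ] Y, (IsLprojection Y P ∨ IsMprojection Y P) ∧ P ≠ 0 ∧ P ≠ 1) ∨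
        (∃ (p : ℝ) (P : X →L[ℝ] X), 1 < p ∧ P ≠ 0 ∧ P ≠ 1 ∧ Vale.Agent.Lib.P084.LpSum.IsLpSummand p P) ∨
        (∃ (p : ℝ) (P : Y →L[ℝ] Y), 1 < p ∧ P ≠ 0 ∧ P ≠ 1 ∧ Vale.Agent.Lib.P084.LpSum.IsLpSummand p P) ∨
        Vale.Agent.Lib.P084.C0.IsVectorC0H X ∨ Vale.Agent.Lib.P084.C0.IsVectorC0H Y ∨
        Vale.Agent.Lib.P084.Flat.FlatDense X ∨ Vale.Agent.Lib.P084.Flat.FlatDense Y ∨
        Vale.Agent.Lib.P084.BallFace.HasBallFaces X ∨ Vale.Agent.Lib.P084.BallFace.HasBallFaces Y) →
      ∃ T : X ≃ₗᵢ[ℝ] Y, ∀ x : sphere (0 : X) 1, T x = f x) ∧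
    ((∃ T : X ≃ₗᵢ[ℝ] Y, ∀ x : sphere (0 : X) 1, T x = f x) ∨
      ∃ δ : ℝ, 0 < δ ∧ IsFaceTree X δ ∧ IsFaceTree Y δ) :=
  main_union hrank f hf hs

end Vale.Agent.Results.P084.AAAA_rnp
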