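import Mathlib
import Vale.Agent.Lib.P084.Inf.Flow

namespace Vale.Agent.Results.P084.AAAB_odd

open Metric

/-- Every surjective isometry between the unit spheres of two real normed spaces of arbitrary
dimension, finite or infinite, complete or not, maps antipodes to antipodes. -/
theorem result {X Y : Type*} [NormedAddCommGroup X] [NormedSpace ℝ X]
    [NormedAddCommGroup Y] [NormedSpace ℝ Y]
    (f : sphere (0 : X) 1 → sphere (0 : Y) 1) (hf : Isometry f)
    (hs : Function.Surjective f) (x : sphere (0 : X) 1) :
    ((f (-x) : sphere (0 : Y) 1) : Y) = -((f x : sphere (0 : Y) 1) : Y) :=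
  Vale.Agent.Lib.P084.Inf.sphere_iso_odd f hf hs x

end Vale.Agent.Results.P084.AAAB_odd
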