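import Vale.Agent.Lib.P084.BallFace.Compact

/-!
Tingley's problem: the space of compact operators between infinite dimensional Hilbert spaces, real or
complex, has the Mazur-Ulam property.
-/

namespace Vale.Agent.Results.P084.AAAC_compact

open Metric
open Vale.Agent.Lib.P084.BallFace

/-- Let `H₁`, `H₂` be infinite dimensional real Hilbert spaces, `H₃`, `H₄` infinite dimensional complex
Hilbert spaces and `Y` any real normed space.  Every surjective isometry of the unit sphere of the
space of compact operators `H₁ → H₂` (with the operator norm) onto the unit sphere of `Y` is the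
restriction of a surjective linear isometry; the same holds for the compact operators `H₃ → H₄`, a real
normed space by restriction of scalars. -/
theorem result {H₁ H₂ H₃ H₄ Y : Type*}
    [NormedAddCommGroup H₁] [InnerProductSpace ℝ H₁] [CompleteSpace H₁]
    [NormedAddCommGroup H₂] [InnerProductSpace ℝ H₂] [CompleteSpace H₂]
    [NormedAddCommGroup H₃] [InnerProductSpace ℂ H₃] [CompleteSpace H₃]
    [NormedAddCommGroup H₄] [InnerProductSpace ℂ H₄] [CompleteSpace H₄]
    [NormedAddCommGroup Y] [NormedSpace ℝ Y] :
    (¬ FiniteDimensional ℝ H₁ → ¬ FiniteDimensional ℝ H₂ →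
      ∀ f : sphere (0 : compactOperator (RingHom.id ℝ) H₁ H₂) 1 → sphere (0 : Y) 1,
        Isometry f → Function.Surjective f →
        ∃ T : compactOperator (RingHom.id ℝ) H₁ H₂ ≃ₗᵢ[ℝ] Y,
          ∀ x : sphere (0 : compactOperator (RingHom.id ℝ) H₁ H₂) 1, T x = f x) ∧
    (¬ FiniteDimensional ℂ H₃ → ¬ FiniteDimensional ℂ H₄ →
      ∀ f : sphere (0 : compactOperator (RingHom.id ℂ) H₃ H₄) 1 → sphere (0 : Y) 1,
        Isometry f → Function.Surjective f →
        ∃ T : compactOperator (RingHom.id ℂ) H₃ H₄ ≃ₗᵢ[ℝ] Y,
          ∀ x : sphere (0 : compactOperator (RingHom.id ℂ) H₃ H₄) 1, T x = f x) :=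
  ⟨fun h₁ h₂ f hf hs =>
      extends_of_hasBallFaces_source (hasBallFaces_compact_real h₁ h₂) f hf hs,
    fun h₃ h₄ f hf hs =>
      extends_of_hasBallFaces_source (hasBallFaces_compact_complex h₃ h₄) f hf hs⟩

end Vale.Agent.Results.P084.AAAC_compact
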