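import Vale.Agent.Lib.P084.LSum.Top

/-!
Tingley's problem for spaces with a nontrivial L-projection (l_1 sums of two nonzero spaces).
-/

namespace Vale.Agent.Results.P084.AAAC_lsum

open Metric

/-- Let `X`, `Y` be real normed spaces (any dimension, complete or not).  If `X` or `Y` has an
L-projection `P` different from `0` and `1` (a continuous linear idempotent with
`‖x‖ = ‖P x‖ + ‖x - P x‖`, that is, the space is the l_1 sum of the two nonzero subspaces given by the
range and the kernel of `P`), then every surjective isometry of the unit sphere of `X` onto the unit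
sphere of `Y` is the restriction of a surjective linear isometry of `X` onto `Y`. -/
theorem result {X Y : Type*} [NormedAddCommGroup X] [NormedSpace ℝ X]
    [NormedAddCommGroup Y] [NormedSpace ℝ Y]
    (f : sphere (0 : X) 1 → sphere (0 : Y) 1) (hf : Isometry f) (hs : Function.Surjective f)
    (h : (∃ P : X →L[ℝ] X, IsLprojection X P ∧ P ≠ 0 ∧ P ≠ 1) ∨
      (∃ P : Y →L[ℝ] Y, IsLprojection Y P ∧ P ≠ 0 ∧ P ≠ 1)) :
    ∃ T : X ≃ₗᵢ[ℝ] Y, ∀ x : sphere (0 : X) 1, T x = f x := by
  rcases h with ⟨P, hP, h0, h1⟩ | ⟨P, hP, h0, h1⟩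
  · exact Vale.Agent.Lib.P084.LSum.extends_of_source f hf hs hP h0 h1
  · exact Vale.Agent.Lib.P084.LSum.extends_of_target f hf hs hP h0 h1

end Vale.Agent.Results.P084.AAAC_lsum
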