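import Vale.Agent.Lib.P084.MSum.Main

/-!
Tingley's problem for `l_infty`-sums: for arbitrary nonzero real normed spaces `Z`, `W` (no
completeness, no Radon-Nikodym property, no assumption on the faces), the product `Z × W` with the
Mathlib norm `‖(z, w)‖ = max ‖z‖ ‖w‖` has the Mazur-Ulam property, with an arbitrary normed target.
-/

namespace Vale.Agent.Results.P084.AAAC_msum

/-- Let `Z`, `W` be nonzero real normed spaces and `Y` any real normed space. Then every surjective
isometry from the unit sphere of the sup-norm product `Z × W` onto the unit sphere of `Y` is the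
restriction of a surjective linear isometry of `Z × W` onto `Y`. -/
theorem result {Z W Y : Type*} [NormedAddCommGroup Z] [NormedSpace ℝ Z] [NormedAddCommGroup W]
    [NormedSpace ℝ W] [NormedAddCommGroup Y] [NormedSpace ℝ Y] [Nontrivial Z] [Nontrivial W]
    (f : Metric.sphere (0 : Z × W) 1 → Metric.sphere (0 : Y) 1)
    (hf : Isometry f) (hs : Function.Surjective f) :
    ∃ T : (Z × W) ≃ₗᵢ[ℝ] Y, ∀ x : Metric.sphere (0 : Z × W) 1, T (x : Z × W) = (f x : Y) :=
  Vale.Agent.Lib.P084.MSum.sphere_isometry_prod f hf hs

end Vale.Agent.Results.P084.AAAC_msum
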