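import Vale.Agent.Lib.P084.Dim3N.Wrap
import Vale.Agent.Lib.P084.NS.Main

/-!
Tingley's problem: every real normed space of finite dimension at least four (any norm, no convexity
or smoothness assumption), and every strictly convex real normed space of dimension at least three
(possibly infinite), has the Mazur-Ulam property, with an arbitrary normed target.
-/

namespace Vale.Agent.Results.P084.AAA_union

/-- Let `X` be a real normed space which is either finite-dimensional of dimension at least four
(with an arbitrary norm), or strictly convex of dimension at least three (possibly infinite). Let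
`Y` be any real normed space. Then every surjective isometry between the unit spheres of `X` and `Y`
is the restriction of a surjective linear isometry of `X` onto `Y`. -/
theorem result {X Y : Type*} [NormedAddCommGroup X] [NormedSpace ℝ X]
    [NormedAddCommGroup Y] [NormedSpace ℝ Y]
    (hX : (FiniteDimensional ℝ X ∧ 4 ≤ Module.finrank ℝ X) ∨
      (StrictConvexSpace ℝ X ∧ (3 : Cardinal) ≤ Module.rank ℝ X))
    (f : Metric.sphere (0 : X) 1 → Metric.sphere (0 : Y) 1)
    (hf : Isometry f) (hs : Function.Surjective f) :
    ∃ T : X ≃ₗᵢ[ℝ] Y, ∀ x : Metric.sphere (0 : X) 1, T (x : X) = (f x : Y) := by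
  rcases hX with ⟨hfin, hdim⟩ | ⟨hsc, hrank⟩
  · exact Vale.Agent.Lib.P084.NS.sphere_isometry_findim hdim f hf hs
  · exact Vale.Agent.Lib.P084.Dim3N.sphere_isometry_strict3 hrank f hf hs

end Vale.Agent.Results.P084.AAA_union
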