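import Vale.Agent.Lib.P084.Gen.Odd

/-!
Tingley's problem: every surjective isometry between the unit spheres of two arbitrary real normed
spaces (any dimension, no completeness or convexity assumption) is odd.
-/

namespace Vale.Agent.Results.P084.AA_odd

/-- Let `X`, `Y` be arbitrary real normed spaces and `f` a surjective isometry from the unit sphere
of `X` onto the unit sphere of `Y`. Then `f (-x) = - f x` for every `x` in the sphere. -/
theorem result {X Y : Type*} [NormedAddCommGroup X] [NormedSpace ℝ X]
    [NormedAddCommGroup Y] [NormedSpace ℝ Y]
    (f : Metric.sphere (0 : X) 1 → Metric.sphere (0 : Y) 1)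
    (hf : Isometry f) (hs : Function.Surjective f) (x : Metric.sphere (0 : X) 1) :
    (f (-x) : Y) = -(f x : Y) :=
  Vale.Agent.Lib.P084.Gen.sphere_isometry_odd f hf hs x

end Vale.Agent.Results.P084.AA_odd
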